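import Vale.Agent.P181.MD.Spec

/-!
# P181 MD [D]: the columns of the tests, shift columns, transversals (helper124)
-/

set_option autoImplicit false

namespace Vale.Agent.P181.MD.H124

open Finset Vale.Agent.P181 Vale.Agent.P181.H59 Vale.Agent.P181.TS Vale.Agent.P181.MD

theorem card_mod (N s r : ℕ) (hs : 0 < s) :
    (univ.filter fun n : Fin N => (n : ℕ) % s = r % s).card ≤ N / s + 1 := by
  have h1 : (univ.filter fun n : Fin N => (n : ℕ) % s = r % s).card ≤
      ((range N).filter fun n => n ≡ r [MOD s]).card := by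
    refine Finset.card_le_card_of_injOn (fun n => (n : ℕ)) ?_ ?_
    · intro n hn
      have := (Finset.mem_filter.1 (Finset.mem_coe.1 hn)).2
      exact Finset.mem_coe.2 (Finset.mem_filter.2 ⟨Finset.mem_range.2 n.2, this⟩)
    · intro n _ n' _ h
      exact Fin.ext h
  refine h1.trans ?_
  rw [← Nat.count_eq_card_filter_range, Nat.count_modEq_card _ hs]
  split_ifs <;> omega

variable {b m : ℕ}

theorem mem_cls (cl : Fin b → Fin m) (i : Fin m) (u : Fin b) : u ∈ cls cl i ↔ cl u = i := by
  unfold cls
  simp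

/-- Round robin in a class. -/
theorem single (cl : Fin b → Fin m) (i : Fin m) (h : 0 < (cls cl i).card) :
    ∃ f : ℕ → Fin b, (∀ n, cl (f n) = i) ∧
      ∀ N w, (univ.filter fun n : Fin N => f n = w).card ≤ N / (cls cl i).card + 1 := by
  let ε := (cls cl i).equivFin.symm
  refine ⟨fun n => (ε ⟨n % (cls cl i).card, Nat.mod_lt _ h⟩ : Fin b), fun n => ?_, fun N w => ?_⟩
  · exact (mem_cls cl i _).1 (ε _).2
  · by_cases hw : w ∈ cls cl i
    · refine le_trans (Finset.card_le_card ?_) (card_mod N _ (ε.symm ⟨w, hw⟩ : ℕ) h)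
      intro n hn
      rw [Finset.mem_filter] at hn ⊢
      refine ⟨Finset.mem_univ _, ?_⟩
      have h1 : ε ⟨(n : ℕ) % (cls cl i).card, Nat.mod_lt _ h⟩ = ⟨w, hw⟩ := Subtype.ext hn.2
      rw [← h1, Equiv.symm_apply_apply]
      exact (Nat.mod_mod _ _).symm
    · refine le_trans (le_of_eq ?_) (Nat.zero_le _)
      rw [Finset.card_eq_zero, Finset.filter_eq_empty_iff]
      intro n _ hn
      exact hw (hn ▸ (ε _).2)

/-- Pairs with different codes. -/
theorem pairs (C : Finset (Fin b)) (f : Fin b → ℕ) (P : ℕ) (hC : 2 ≤ C.card)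
    (hP : P < C.card / 2 + 1) (hf : ∀ u ∈ C, (C.filter fun v => f v = f u).card ≤ P) :
    ∃ g g' : ℕ → Fin b, (∀ n, g n ∈ C ∧ g' n ∈ C ∧ f (g n) ≠ f (g' n)) ∧
      ∀ N w, (univ.filter fun n : Fin N => g n = w ∨ g' n = w).card ≤ N / (C.card / 2) + 1 := by
  let ε := C.equivFin.symm
  let σ := Tuple.sort fun j => f (ε j)
  let τ : Fin C.card ≃ C := σ.trans ε
  have hmono : Monotone fun j => f (τ j) := Tuple.monotone_sort fun j => f (ε j)
  set h := C.card / 2 with hh
  have h0 : 0 < h := by omega
  have h2 : 2 * h ≤ C.card := by omega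
  have hlt : ∀ n : ℕ, n % h < h := fun n => Nat.mod_lt _ h0
  refine ⟨fun n => (τ ⟨n % h, by have := hlt n; omega⟩ : Fin b),
    fun n => (τ ⟨n % h + h, by have := hlt n; omega⟩ : Fin b), fun n => ⟨(τ _).2, (τ _).2, ?_⟩,
    fun N w => ?_⟩
  · intro heq
    have hn := hlt n
    have key : ∀ j : Fin C.card, n % h ≤ j → (j : ℕ) ≤ n % h + h →
        f (τ j) = f (τ ⟨n % h, by omega⟩) := by
      intro j hj1 hj2
      apply le_antisymm
      · rw [heq]
        exact hmono (show j ≤ ⟨n % h + h, by omega⟩ from hj2)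
      · exact hmono (show (⟨n % h, by omega⟩ : Fin C.card) ≤ j from hj1)
    have hcard : h + 1 ≤ (C.filter fun v => f v = f (τ ⟨n % h, by omega⟩)).card := by
      rw [← Fintype.card_fin (h + 1), ← Finset.card_univ]
      refine Finset.card_le_card_of_injOn
        (fun j : Fin (h + 1) => (τ ⟨n % h + j, by have := j.2; omega⟩ : Fin b)) ?_ ?_
      · intro j _
        have := j.2
        exact Finset.mem_coe.2 (Finset.mem_filter.2 ⟨(τ _).2,
          key ⟨n % h + j, by omega⟩ (Nat.le_add_right _ _) (by
            change n % h + (j : ℕ) ≤ n % h + h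
            omega)⟩)
      · intro j _ j' _ hjj
        have h3 := τ.injective (Subtype.ext hjj)
        have h4 := congrArg Fin.val h3
        apply Fin.ext
        change n % h + (j : ℕ) = n % h + (j' : ℕ) at h4
        omega
    have := hf _ (τ ⟨n % h, by omega⟩).2
    omega
  · by_cases hw : w ∈ C
    · refine le_trans (Finset.card_le_card ?_) (card_mod N h (τ.symm ⟨w, hw⟩ : ℕ) h0)
      intro n hn
      rw [Finset.mem_filter] at hn ⊢
      refine ⟨Finset.mem_univ _, ?_⟩
      rcases hn.2 with h3 | h3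
      · have h4 : τ ⟨(n : ℕ) % h, by have := hlt n; omega⟩ = ⟨w, hw⟩ := Subtype.ext h3
        rw [← h4, Equiv.symm_apply_apply]
        exact (Nat.mod_mod _ _).symm
      · have h4 : τ ⟨(n : ℕ) % h + h, by have := hlt n; omega⟩ = ⟨w, hw⟩ := Subtype.ext h3
        rw [← h4, Equiv.symm_apply_apply]
        change (n : ℕ) % h = ((n : ℕ) % h + h) % h
        rw [Nat.add_mod_right, Nat.mod_mod]
    · refine le_trans (le_of_eq ?_) (Nat.zero_le _)
      rw [Finset.card_eq_zero, Finset.filter_eq_empty_iff]
      intro n _ hn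
      rcases hn with h3 | h3
      · exact hw (h3 ▸ (τ _).2)
      · exact hw (h3 ▸ (τ _).2)

/-- The data of a shift column are good. -/
def Good (cl : Fin b → Fin m) (y : Fin b → Fin m → ℕ) (t : Tst b m) : Prop :=
  cl t.2.2.1 = t.1 ∧ cl t.2.2.2 = t.1 ∧ t.2.2.1 ≠ t.2.2.2 ∧ t.2.1 ≠ t.1 ∧
    y t.2.2.1 t.2.1 ≠ y t.2.2.2 t.2.1

/-- The column: a transversal, or two letters of a class and none of another class. -/
def col (sg : Fin m → ℕ → Fin b) (o : Option (Tst b m)) (n : ℕ) : Finset (Fin b) :=
  match o with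
  | none => univ.image fun i => sg i n
  | some t => {t.2.2.1, t.2.2.2} ∪
      (univ.filter fun i => i ≠ t.1 ∧ i ≠ t.2.1).image fun i => sg i n

/-- The excess of the class `j`. -/
def chi (j : Fin m) (o : Option (Tst b m)) : ℤ :=
  match o with
  | none => 0
  | some t => (if t.1 = j then 1 else 0) - (if t.2.1 = j then 1 else 0)

theorem card_col {cl : Fin b → Fin m} {y : Fin b → Fin m → ℕ} {sg : Fin m → ℕ → Fin b}
    (hsg : ∀ i n, cl (sg i n) = i) {o : Option (Tst b m)} (ho : ∀ t, o = some t → Good cl y t)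
    (n : ℕ) (j : Fin m) : ((col sg o n ∩ cls cl j).card : ℤ) = 1 + chi j o := by
  cases o with
  | none =>
    have h : col sg none n ∩ cls cl j = {sg j n} := by
      ext w
      rw [Finset.mem_inter, mem_cls, Finset.mem_singleton]
      change w ∈ univ.image (fun i => sg i n) ∧ _ ↔ _
      rw [Finset.mem_image]
      constructor
      · rintro ⟨⟨i, _, rfl⟩, hw⟩
        rw [hsg] at hw
        rw [hw]
      · rintro rfl
        exact ⟨⟨j, Finset.mem_univ _, rfl⟩, hsg j n⟩
    rw [h, Finset.card_singleton]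
    rfl
  | some t =>
    obtain ⟨h1, h2, h3, h4, -⟩ := ho t rfl
    have hmem : ∀ w, w ∈ col sg (some t) n ∩ cls cl j ↔
        ((w = t.2.2.1 ∨ w = t.2.2.2) ∧ t.1 = j) ∨ (w = sg j n ∧ j ≠ t.1 ∧ j ≠ t.2.1) := by
      intro w
      rw [Finset.mem_inter, mem_cls]
      change w ∈ ({t.2.2.1, t.2.2.2} ∪
        (univ.filter fun i => i ≠ t.1 ∧ i ≠ t.2.1).image fun i => sg i n) ∧ _ ↔ _
      rw [Finset.mem_union, Finset.mem_insert, Finset.mem_singleton, Finset.mem_image]
      constructor
      · rintro ⟨h | ⟨i, hi, rfl⟩, hw⟩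
        · left
          refine ⟨h, ?_⟩
          rcases h with rfl | rfl
          · rw [← h1, hw]
          · rw [← h2, hw]
        · right
          rw [hsg] at hw
          subst hw
          exact ⟨rfl, (Finset.mem_filter.1 hi).2⟩
      · rintro (⟨h, hj⟩ | ⟨rfl, h5, h6⟩)
        · refine ⟨Or.inl h, ?_⟩
          rcases h with rfl | rfl
          · rw [h1, hj]
          · rw [h2, hj]
        · exact ⟨Or.inr ⟨j, Finset.mem_filter.2 ⟨Finset.mem_univ _, h5, h6⟩, rfl⟩, hsg j n⟩
    by_cases hj : t.1 = j
    · have h : col sg (some t) n ∩ cls cl j = {t.2.2.1, t.2.2.2} := by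
        ext w
        rw [hmem, Finset.mem_insert, Finset.mem_singleton]
        constructor
        · rintro (⟨h, -⟩ | ⟨-, h, -⟩)
          · exact h
          · exact absurd hj.symm h
        · intro h
          exact Or.inl ⟨h, hj⟩
      have hk : t.2.1 ≠ j := by rw [← hj]; exact h4
      rw [h, Finset.card_pair h3]
      change ((2 : ℕ) : ℤ) = 1 + ((if t.1 = j then 1 else 0) - (if t.2.1 = j then 1 else 0))
      rw [if_pos hj, if_neg hk]
      norm_num
    · by_cases hk : t.2.1 = j
      · have h : col sg (some t) n ∩ cls cl j = ∅ := by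
          ext w
          rw [hmem]
          constructor
          · rintro (⟨-, h⟩ | ⟨-, -, h⟩)
            · exact absurd h hj
            · exact absurd hk.symm h
          · intro h
            simp at h
        rw [h, Finset.card_empty]
        change ((0 : ℕ) : ℤ) = 1 + ((if t.1 = j then 1 else 0) - (if t.2.1 = j then 1 else 0))
        rw [if_neg hj, if_pos hk]
        norm_num
      · have h : col sg (some t) n ∩ cls cl j = {sg j n} := by
          ext w
          rw [hmem, Finset.mem_singleton]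
          constructor
          · rintro (⟨-, h⟩ | ⟨h, -, -⟩)
            · exact absurd h hj
            · exact h
          · intro h
            exact Or.inr ⟨h, fun h' => hj h'.symm, fun h' => hk h'.symm⟩
        rw [h, Finset.card_singleton]
        change ((1 : ℕ) : ℤ) = 1 + ((if t.1 = j then 1 else 0) - (if t.2.1 = j then 1 else 0))
        rw [if_neg hj, if_neg hk]
        norm_num

theorem card_eq_sum (cl : Fin b → Fin m) (A : Finset (Fin b)) :
    A.card = ∑ j, (A ∩ cls cl j).card := by
  rw [Finset.card_eq_sum_card_fiberwise (f := cl) (t := univ) fun _ _ => Finset.mem_coe.2 (Finset.mem_univ _)]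
  refine Finset.sum_congr rfl fun j _ => ?_
  congr 1
  ext w
  rw [Finset.mem_filter, Finset.mem_inter, mem_cls]

theorem mem_miss (cl : Fin b → Fin m) (A : Finset (Fin b)) (j : Fin m) :
    j ∈ miss cl A ↔ (A ∩ cls cl j).card = 0 := by
  unfold miss
  rw [Finset.mem_filter, Finset.card_eq_zero]
  constructor
  · rintro ⟨-, h⟩
    ext w
    rw [Finset.mem_inter, mem_cls]
    constructor
    · rintro ⟨h1, h2⟩
      exact absurd h2 (h w h1)
    · intro h1
      simp at h1
  · intro h
    refine ⟨Finset.mem_univ _, fun w hw hc => ?_⟩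
    have : w ∈ A ∩ cls cl j := Finset.mem_inter.2 ⟨hw, (mem_cls cl j w).2 hc⟩
    rw [h] at this
    simp at this

theorem sum_chi (o : Option (Tst b m)) : ∑ j, chi j o = 0 := by
  cases o with
  | none => simp [chi]
  | some t => simp [chi, Finset.sum_sub_distrib]

theorem col_card {cl : Fin b → Fin m} {y : Fin b → Fin m → ℕ} {sg : Fin m → ℕ → Fin b}
    (hsg : ∀ i n, cl (sg i n) = i) {o : Option (Tst b m)} (ho : ∀ t, o = some t → Good cl y t)
    (n : ℕ) : (col sg o n).card = m := by
  have h : ((col sg o n).card : ℤ) = m := by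
    rw [card_eq_sum cl]
    push_cast
    rw [Finset.sum_congr rfl fun j _ => card_col hsg ho n j, Finset.sum_add_distrib, sum_chi]
    simp
  exact_mod_cast h

theorem miss_some {cl : Fin b → Fin m} {y : Fin b → Fin m → ℕ} {sg : Fin m → ℕ → Fin b}
    (hsg : ∀ i n, cl (sg i n) = i) {t : Tst b m} (ht : Good cl y t) (n : ℕ) :
    miss cl (col sg (some t) n) = {t.2.1} := by
  ext j
  rw [mem_miss, Finset.mem_singleton]
  have h := card_col hsg (o := some t) (fun t' ht' => by
    rw [← Option.some.inj ht']; exact ht) n j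
  have h4 := ht.2.2.2.1
  change _ = 1 + ((if t.1 = j then 1 else 0) - (if t.2.1 = j then 1 else 0)) at h
  constructor
  · intro h0
    rw [h0] at h
    by_contra hne
    rw [if_neg (fun h' : t.2.1 = j => hne h'.symm)] at h
    split_ifs at h <;> omega
  · intro hj
    subst hj
    rw [if_pos rfl, if_neg (fun h' : t.1 = t.2.1 => h4 h'.symm)] at h
    omega

theorem col_reg {cl : Fin b → Fin m} {y : Fin b → Fin m → ℕ} {sg : Fin m → ℕ → Fin b}
    (hsg : ∀ i n, cl (sg i n) = i) {o : Option (Tst b m)} (ho : ∀ t, o = some t → Good cl y t)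
    (n : ℕ) : RegM cl y (col sg o n) := by
  cases o with
  | none =>
    left
    ext j
    rw [mem_miss]
    have h := card_col hsg ho n j
    change _ = 1 + (0 : ℤ) at h
    constructor
    · intro h0
      rw [h0] at h
      omega
    · intro h0
      simp at h0
  | some t =>
    right
    have ht := ho t rfl
    refine ⟨t.2.1, miss_some hsg ht n, t.2.2.1, ?_, t.2.2.2, ?_, ht.2.2.1, ?_, ht.2.2.2.2⟩
    · change _ ∈ _ ∪ _
      simp
    · change _ ∈ _ ∪ _
      simp
    · rw [ht.1, ht.2.1]

theorem mem_col {cl : Fin b → Fin m} {sg : Fin m → ℕ → Fin b}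
    (hsg : ∀ i n, cl (sg i n) = i) {o : Option (Tst b m)} {n : ℕ} {w : Fin b}
    (h : w ∈ col sg o n) : sg (cl w) n = w ∨
      ∃ t, o = some t ∧ (t.2.2.1 = w ∨ t.2.2.2 = w) := by
  cases o with
  | none =>
    left
    change w ∈ univ.image (fun i => sg i n) at h
    obtain ⟨i, -, rfl⟩ := Finset.mem_image.1 h
    rw [hsg]
  | some t =>
    change w ∈ ({t.2.2.1, t.2.2.2} ∪
      (univ.filter fun i => i ≠ t.1 ∧ i ≠ t.2.1).image fun i => sg i n) at h
    rw [Finset.mem_union, Finset.mem_insert, Finset.mem_singleton, Finset.mem_image] at h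
    rcases h with (h | h) | ⟨i, -, rfl⟩
    · exact Or.inr ⟨t, rfl, Or.inl h.symm⟩
    · exact Or.inr ⟨t, rfl, Or.inr h.symm⟩
    · left
      rw [hsg]

theorem card_filter_sum {α : Type} [Fintype α] (p : α → Prop) [DecidablePred p] :
    (univ.filter p).card = ∑ x, if p x then 1 else 0 := by
  rw [Finset.card_filter]

/-- [MD-D] -/
theorem dStmt : DStmt := by
  classical
  intro b m e P W ND cl y T hm he hcls hsys hPe hND v hv1 hv2
  obtain ⟨hT1, hT2, -, hT4, -⟩ := hsys
  have hs0 : ∀ i, 3000 ≤ (cls cl i).card := fun i => by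
    have := (hcls i).1
    omega
  choose sg hsg1 hsg2 using fun i => single cl i (by have := hs0 i; omega)
  -- the pairs
  have hpr : ∀ i k : Fin m, ∃ g : ℕ → Fin b × Fin b, k ≠ i →
      (∀ n, Good cl y (i, k, g n)) ∧ ∀ N w, (univ.filter fun n : Fin N =>
        (g n).1 = w ∨ (g n).2 = w).card ≤ N / ((cls cl i).card / 2) + 1 := by
    intro i k
    by_cases hki : k = i
    · exact ⟨fun n => (sg i n, sg i n), fun h => absurd hki h⟩
    · obtain ⟨g, g', h1, h2⟩ := pairs (cls cl i) (fun u => y u k) P
        (by have := hs0 i; omega) (by have := (hcls i).1; omega) (fun u hu => by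
          rw [mem_cls] at hu
          refine le_trans (Finset.card_le_card ?_) (hT4 u k (by rw [hu]; exact hki))
          intro w hw
          rw [Finset.mem_filter, mem_cls] at hw
          rw [Finset.mem_filter]
          exact ⟨Finset.mem_univ _, by rw [hw.1, hu], hw.2⟩)
      refine ⟨fun n => (g n, g' n), fun _ => ⟨fun n => ?_, h2⟩⟩
      obtain ⟨h3, h4, h5⟩ := h1 n
      rw [mem_cls] at h3 h4
      exact ⟨h3, h4, fun h => h5 (by change y (g n) k = y (g' n) k; rw [show g n = g' n from h]),
        hki, h5⟩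
  choose pr hpr using hpr
  -- the excess
  let z : Fin m := ⟨0, by omega⟩
  let δ : Fin m → ℤ := fun j => (v j : ℤ) - ND - ∑ t ∈ T, chi j (some t)
  have hδ : ∑ j, δ j = 0 := by
    have h1 : ∑ j, ∑ t ∈ T, chi j (some t) = 0 := by
      rw [Finset.sum_comm]
      exact Finset.sum_eq_zero fun t _ => sum_chi (some t)
    have h2 : ∑ j, (v j : ℤ) = ND * m := by exact_mod_cast hv1
    change ∑ j, ((v j : ℤ) - ND - ∑ t ∈ T, chi j (some t)) = 0
    rw [Finset.sum_sub_distrib, Finset.sum_sub_distrib, h1, h2]
    simp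
    ring
  have hδb : ∀ j, (δ j).natAbs ≤ W + T.card := by
    intro j
    have h1 : |∑ t ∈ T, chi j (some t)| ≤ T.card := by
      refine (Finset.abs_sum_le_sum_abs _ _).trans ?_
      refine (Finset.sum_le_card_nsmul T _ 1 fun t _ => ?_).trans (by simp)
      change |(if t.1 = j then (1 : ℤ) else 0) - (if t.2.1 = j then 1 else 0)| ≤ 1
      split_ifs <;> simp
    have h2 := hv2 j
    have h3 := abs_le.1 h1
    change ((v j : ℤ) - ND - ∑ t ∈ T, chi j (some t)).natAbs ≤ _
    omega
  let Nc : Fin m → ℕ := fun c => if c = z then 0 else (δ c).natAbs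
  let pf : Fin m → Fin m × Fin m := fun c => if 0 ≤ δ c then (c, z) else (z, c)
  have hpf : ∀ c, c ≠ z → (pf c).2 ≠ (pf c).1 := by
    intro c hc
    change (if 0 ≤ δ c then (c, z) else (z, c)).2 ≠ (if 0 ≤ δ c then (c, z) else (z, c)).1
    split_ifs
    · exact hc.symm
    · exact hc
  have hNc : ∑ c, Nc c ≤ m * (W + T.card) := by
    have := Finset.sum_le_card_nsmul univ Nc (W + T.card) fun c _ => by
      change (if c = z then 0 else (δ c).natAbs) ≤ _
      split_ifs
      · exact Nat.zero_le _
      · exact hδb c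
    simpa using this
  let R : ℕ := ND - (T.card + ∑ c, Nc c)
  -- the columns
  have hcard : Fintype.card ({t // t ∈ T} ⊕ (Σ c : Fin m, Fin (Nc c)) ⊕ Fin R) = ND := by
    simp only [Fintype.card_sum, Fintype.card_sigma, Fintype.card_fin, Fintype.card_coe]
    change T.card + (∑ c, Nc c + (ND - (T.card + ∑ c, Nc c))) = ND
    omega
  let Φ := Fintype.equivFinOfCardEq hcard
  let o : {t // t ∈ T} ⊕ (Σ c : Fin m, Fin (Nc c)) ⊕ Fin R → Option (Tst b m) := fun x =>
    match x with
    | Sum.inl t => some t.1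
    | Sum.inr (Sum.inl x) => some ((pf x.1).1, (pf x.1).2, pr (pf x.1).1 (pf x.1).2 x.2)
    | Sum.inr (Sum.inr _) => none
  have hc0 : ∀ x : (Σ c : Fin m, Fin (Nc c)), x.1 ≠ z := by
    rintro ⟨c, n⟩ hc
    change c = z at hc
    subst hc
    have := n.2
    change (n : ℕ) < (if z = z then 0 else (δ z).natAbs) at this
    rw [if_pos rfl] at this
    exact absurd this (Nat.not_lt_zero _)
  have ho : ∀ x t, o x = some t → Good cl y t := by
    rintro (t' | x | r) t h
    · have h1 : t'.1 = t := Option.some.inj h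
      rw [← h1]
      obtain ⟨h2, h3, h4, h5, h6⟩ := hT1 t'.1 t'.2
      exact ⟨h2, h3, h4, h5, h6⟩
    · have h1 := Option.some.inj h
      rw [← h1]
      exact (hpr _ _ (hpf _ (hc0 x))).1 _
    · exact absurd h (by simp [o])
  refine ⟨fun d => col sg (o (Φ.symm d)) d, fun d => col_card hsg1 (ho _) _,
    fun d => col_reg hsg1 (ho _) _, fun t ht => ?_, fun j => ?_, fun w => ?_⟩
  · refine ⟨Φ (Sum.inl ⟨t, ht⟩), ?_⟩
    have h : o (Φ.symm (Φ (Sum.inl ⟨t, ht⟩))) = some t := by
      rw [Equiv.symm_apply_apply]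
    simp only [h]
    have hg := ho (Sum.inl ⟨t, ht⟩) t rfl
    refine ⟨?_, ?_, ?_⟩
    · change _ ∈ _ ∪ _
      simp
    · change _ ∈ _ ∪ _
      simp
    · intro k hk
      rw [miss_some hsg1 hg] at hk
      exact Finset.mem_singleton.1 hk
  · -- the class sums
    have h : (∑ d, ((col sg (o (Φ.symm d)) d ∩ cls cl j).card : ℤ)) = v j := by
      rw [Finset.sum_congr rfl fun d _ => card_col hsg1 (ho _) _ j, Finset.sum_add_distrib,
        Φ.symm.sum_comp (fun x => chi j (o x)), Fintype.sum_sum_type, Fintype.sum_sum_type,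
        Fintype.sum_sigma]
      have h1 : ∑ t : {t // t ∈ T}, chi j (o (Sum.inl t)) = ∑ t ∈ T, chi j (some t) :=
        Finset.sum_coe_sort T fun t => chi j (some t)
      have h2 : ∑ r : Fin R, chi j (o (Sum.inr (Sum.inr r))) = 0 :=
        Finset.sum_eq_zero fun r _ => rfl
      have h3 : ∀ c : Fin m, ∑ n : Fin (Nc c), chi j (o (Sum.inr (Sum.inl ⟨c, n⟩))) =
          δ c * ((if c = j then 1 else 0) - (if z = j then 1 else 0)) := by
        intro c
        have h4 : ∀ n : Fin (Nc c), chi j (o (Sum.inr (Sum.inl ⟨c, n⟩))) =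
            (if (pf c).1 = j then 1 else 0) - (if (pf c).2 = j then 1 else 0) := fun n => rfl
        rw [Finset.sum_congr rfl fun n _ => h4 n, Finset.sum_const, Finset.card_univ,
          Fintype.card_fin, nsmul_eq_mul]
        by_cases hc : c = z
        · have h5 : Nc c = 0 := if_pos hc
          rw [h5, hc, sub_self, mul_zero, Nat.cast_zero, zero_mul]
        · have h5 : Nc c = (δ c).natAbs := if_neg hc
          rw [h5]
          by_cases hd : 0 ≤ δ c
          · have h6 : pf c = (c, z) := if_pos hd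
            rw [h6]
            have : ((δ c).natAbs : ℤ) = δ c := Int.natAbs_of_nonneg hd
            rw [this]
          · have h6 : pf c = (z, c) := if_neg hd
            rw [h6]
            have : ((δ c).natAbs : ℤ) = -δ c := by omega
            rw [this]
            ring
      rw [h1, h2, Finset.sum_congr rfl fun c _ => h3 c]
      have h7 : ∑ c, δ c * ((if c = j then (1 : ℤ) else 0) - (if z = j then 1 else 0)) = δ j := by
        simp only [mul_sub, Finset.sum_sub_distrib]
        rw [← Finset.sum_mul, hδ, zero_mul, sub_zero]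
        simp
      rw [h7]
      change ∑ _d : Fin ND, (1 : ℤ) + (_ + ((v j : ℤ) - ND - _ + 0)) = v j
      simp
    exact_mod_cast h
  · -- the degrees
    have hdg : dgr (fun d => col sg (o (Φ.symm d)) d) w ≤
        (univ.filter fun d : Fin ND => sg (cl w) d = w).card +
        (univ.filter fun d : Fin ND => ∃ t, o (Φ.symm d) = some t ∧
          (t.2.2.1 = w ∨ t.2.2.2 = w)).card := by
      unfold dgr
      refine le_trans (Finset.card_le_card ?_) (Finset.card_union_le _ _)
      intro d hd
      rw [Finset.mem_filter] at hd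
      rw [Finset.mem_union, Finset.mem_filter, Finset.mem_filter]
      rcases mem_col hsg1 hd.2 with h | h
      · exact Or.inl ⟨Finset.mem_univ _, h⟩
      · exact Or.inr ⟨Finset.mem_univ _, h⟩
    have h1 : (univ.filter fun d : Fin ND => sg (cl w) d = w).card ≤ ND / e + 1 := by
      refine (hsg2 _ ND w).trans ?_
      have h0 : ND / (cls cl (cl w)).card ≤ ND / e :=
        Nat.div_le_div_left (hcls (cl w)).1 (by omega)
      omega
    have h2 : (univ.filter fun d : Fin ND => ∃ t, o (Φ.symm d) = some t ∧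
          (t.2.2.1 = w ∨ t.2.2.2 = w)).card ≤ 8 * P + (∑ c, (Nc c / (e / 2) + 1)) := by
      rw [card_filter_sum, Φ.symm.sum_comp (fun x => if ∃ t, o x = some t ∧
          (t.2.2.1 = w ∨ t.2.2.2 = w) then 1 else 0), Fintype.sum_sum_type,
        Fintype.sum_sum_type, Fintype.sum_sigma]
      have h3 : (∑ t : {t // t ∈ T}, if ∃ t', o (Sum.inl t) = some t' ∧
          (t'.2.2.1 = w ∨ t'.2.2.2 = w) then 1 else 0) ≤ 8 * P := by
        refine le_trans (le_of_eq ?_) (hT2 w)
        rw [Finset.card_filter, ← Finset.sum_coe_sort T]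
        refine Finset.sum_congr rfl fun t _ => ?_
        refine if_congr ?_ rfl rfl
        constructor
        · rintro ⟨t', h4, h5⟩
          have : t.1 = t' := Option.some.inj h4
          rw [this]
          exact h5
        · intro h5
          exact ⟨t.1, rfl, h5⟩
      have h6 : (∑ r : Fin R, if ∃ t', o (Sum.inr (Sum.inr r)) = some t' ∧
          (t'.2.2.1 = w ∨ t'.2.2.2 = w) then 1 else 0) = 0 := by
        refine Finset.sum_eq_zero fun r _ => if_neg ?_
        rintro ⟨t', h4, -⟩
        exact absurd h4 (by simp [o])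
      have h7 : ∀ c : Fin m, (∑ n : Fin (Nc c), if ∃ t', o (Sum.inr (Sum.inl ⟨c, n⟩)) = some t' ∧
          (t'.2.2.1 = w ∨ t'.2.2.2 = w) then 1 else 0) ≤ Nc c / (e / 2) + 1 := by
        intro c
        by_cases hc : c = z
        · have h5 : Nc c = 0 := if_pos hc
          have h8 : IsEmpty (Fin (Nc c)) := by rw [h5]; infer_instance
          rw [Fintype.sum_empty]
          exact Nat.zero_le _
        · have h8 := (hpr _ _ (hpf c hc)).2 (Nc c) w
          rw [card_filter_sum] at h8
          refine le_trans (le_of_eq ?_) (h8.trans ?_)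
          · refine Finset.sum_congr rfl fun n _ => ?_
            refine if_congr ?_ rfl rfl
            constructor
            · rintro ⟨t', h4, h5⟩
              have h9 := Option.some.inj h4
              rw [← h9] at h5
              exact h5
            · intro h5
              exact ⟨_, rfl, h5⟩
          · have h9 := (hcls (pf c).1).1
            have h10 : Nc c / ((cls cl (pf c).1).card / 2) ≤ Nc c / (e / 2) :=
              Nat.div_le_div_left (by omega) (by omega)
            omega
      rw [h6, add_zero]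
      exact Nat.add_le_add h3 (Finset.sum_le_sum fun c _ => h7 c)
    have h3 : ∑ c, (Nc c / (e / 2) + 1) ≤ 3 * (ND / e + 1) + m := by
      rw [Finset.sum_add_distrib]
      simp only [Finset.sum_const, Finset.card_univ, Fintype.card_fin, smul_eq_mul, mul_one]
      have h4 : (∑ c, Nc c / (e / 2)) * (e / 2) ≤ ND := by
        rw [Finset.sum_mul]
        refine (Finset.sum_le_sum fun c _ => Nat.div_mul_le_self (Nc c) (e / 2)).trans ?_
        omega
      have h5 : ND < (ND / e + 1) * e := by
        have := Nat.lt_mul_div_succ ND (show 0 < e by omega)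
        rw [mul_comm]
        exact this
      have h6 : e ≤ 3 * (e / 2) := by omega
      have h7 : (∑ c, Nc c / (e / 2)) * (e / 2) < 3 * (ND / e + 1) * (e / 2) := by
        refine lt_of_le_of_lt h4 (lt_of_lt_of_le h5 ?_)
        calc (ND / e + 1) * e ≤ (ND / e + 1) * (3 * (e / 2)) := Nat.mul_le_mul_left _ h6
          _ = 3 * (ND / e + 1) * (e / 2) := by ring
      have h8 := Nat.lt_of_mul_lt_mul_right h7
      omega
    omega

end Vale.Agent.P181.MD.H124
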